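import Vale.Agent.P127W36.Defs

/-! The Nikodym maximal function in three-dimensional space. -/

open MeasureTheory Metric
open scoped ENNReal NNReal

namespace Vale.Agent.N127

open Vale.Agent.P127 Vale.Agent.P127W36

/-- the Nikodym maximal function `N_δ f(x)`: the supremum of the averages of `|f|` over all the
tubes `T_δ(a, e)` which contain the point `x` -/
noncomputable def Nik (δ : ℝ) (f : E 3 → ℂ) (x : E 3) : ℝ≥0∞ :=
  ⨆ (a : E 3) (e : sphere (0 : E 3) 1) (_ : x ∈ tube δ a e),
    (volume (tube δ a e))⁻¹ * ∫⁻ y in tube δ a e, ‖f y‖ₑ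

/-- the Nikodym maximal conjecture in `ℝ ^ 3`, together with the measurability of `N_δ f` -/
def NikodymConjecture : Prop :=
  ∀ ε : ℝ, 0 < ε → ∃ C : ℝ≥0, ∀ f : E 3 → ℂ, MemLp f 3 volume → ∀ δ : ℝ, 0 < δ → δ < 1 →
    Measurable (Nik δ f) ∧ eLpNorm (Nik δ f) 3 volume ≤
      C * ENNReal.ofReal (δ ^ (-ε)) * eLpNorm f 3 volume

/-- the section of `A` by the line through `a` in the direction `e`, in the parameter of the line -/
def lineSection (A : Set (E 3)) (a e : E 3) : Set ℝ := {t | a + t • e ∈ A}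

end Vale.Agent.N127
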