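import Vale.Agent.N127.Nik
import Vale.Agent.N127.Defs
import Vale.Agent.P127W36.Main

/-! # The norm form of the Nikodym inequality, and the sections of a set by whole lines -/

open MeasureTheory Metric Set Filter Topology
open scoped ENNReal NNReal

namespace Vale.Agent.N127

open Vale.Agent.P127 Vale.Agent.P127W36

theorem nik_norm (H : AvgIneq) (ε : ℝ) (hε : 0 < ε) : ∃ C : ℝ≥0, ∀ f : E 3 → ℂ,
    MemLp f 3 volume → ∀ δ : ℝ, 0 < δ → δ < 1 → Measurable (Nik δ f) ∧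
      eLpNorm (Nik δ f) 3 volume ≤ C * ENNReal.ofReal (δ ^ (-ε)) * eLpNorm f 3 volume := by
  obtain ⟨C, -, hC⟩ := nik_ineq H (ε := 3 * ε) (by positivity)
  refine ⟨C.toNNReal ^ (1 / 3 : ℝ), fun f hf δ h0 h1 => ?_⟩
  have hm : AEMeasurable (fun x => ‖f x‖ₑ) volume := hf.1.enorm
  refine ⟨(lsc_nik h0 hm).measurable, ?_⟩
  have hI := hC δ h0 h1 (hm.mk _) hm.measurable_mk
  have e1 : nik δ (hm.mk _) = Nik δ f := by
    funext x
    refine iSup_congr fun a => iSup_congr fun e => iSup_congr fun _ => ?_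
    rw [lintegral_congr_ae (ae_restrict_of_ae hm.ae_eq_mk)]
  have e2 : ∫⁻ x, (hm.mk _) x ^ 3 = ∫⁻ x, ‖f x‖ₑ ^ (3 : ℝ) := by
    refine lintegral_congr_ae (hm.ae_eq_mk.mono fun x hx => ?_)
    simp only [← hx, ENNReal.rpow_ofNat]
  have e4 : ENNReal.ofReal (C * δ ^ (-(3 * ε))) ^ (1 / 3 : ℝ) ≤
      ((C.toNNReal ^ (1 / 3 : ℝ) : ℝ≥0) : ℝ≥0∞) * ENNReal.ofReal (δ ^ (-ε)) := by
    rw [ENNReal.ofReal_mul' (Real.rpow_nonneg h0.le _), ENNReal.mul_rpow_of_nonneg _ _ (by norm_num),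
      ENNReal.ofReal_rpow_of_nonneg (Real.rpow_nonneg h0.le _) (by norm_num),
      ← Real.rpow_mul h0.le, show -(3 * ε) * (1 / 3) = -ε by ring,
      ENNReal.coe_rpow_of_nonneg _ (by norm_num)]
    rfl
  rw [eLpNorm_eq_lintegral_rpow_enorm_toReal (by simp) (by simp),
    eLpNorm_eq_lintegral_rpow_enorm_toReal (by simp) (by simp),
    show (3 : ℝ≥0∞).toReal = 3 by simp]
  rw [e1, e2] at hI
  simp only [enorm_eq_self, ENNReal.rpow_ofNat] at hI ⊢
  refine (ENNReal.rpow_le_rpow hI (by norm_num)).trans ?_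
  rw [ENNReal.mul_rpow_of_nonneg _ _ (by norm_num)]
  gcongr

theorem lintegral_ind {U : Set (E 3)} (hU : MeasurableSet U) (T : Set (E 3)) :
    ∫⁻ x in T, U.indicator (1 : E 3 → ℝ≥0∞) x = volume (U ∩ T) := by
  rw [lintegral_indicator_one hU, Measure.restrict_apply hU]

theorem lintegral_ind_pow {U : Set (E 3)} (hU : MeasurableSet U) :
    ∫⁻ x, U.indicator (1 : E 3 → ℝ≥0∞) x ^ 3 = volume U := by
  rw [← lintegral_indicator_one hU]
  refine lintegral_congr fun x => ?_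
  by_cases hx : x ∈ U <;> simp [hx]

theorem maxInd_nik (H : AvgIneq) : MaxInd volume fun x a e : E 3 => a = x ∧ ‖e‖ = 1 := by
  intro ε hε
  obtain ⟨C, h, hC⟩ := nik_ineq H hε
  refine ⟨C, h, fun δ h0 h1 U hU => ?_⟩
  have hm : Measurable (U.indicator (1 : E 3 → ℝ≥0∞)) := measurable_one.indicator hU
  refine ⟨nik δ (U.indicator 1), (lsc_nik h0 hm.aemeasurable).measurable, ?_, ?_⟩
  · rintro x _ e ⟨rfl, he⟩
    refine le_iSup_of_le _ (le_iSup_of_le ⟨e, mem_sphere_zero_iff_norm.2 he⟩ (le_iSup_of_le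
      (ball_subset_tube' h1 _ he (mem_ball_self (by positivity))) (le_of_eq ?_)))
    rw [lintegral_ind hU, ENNReal.div_eq_inv_mul]
  · rw [← lintegral_ind_pow hU]
    exact hC δ h0 h1 _ hm

theorem maxInd_kak (H : M3.KMax 2) : MaxInd (volume : Measure (E 3)).toSphere
    fun (w : sphere (0 : E 3) 1) (_ e : E 3) => e = w := by
  intro ε hε
  obtain ⟨C, hC⟩ := H ε hε
  refine ⟨max C 0, le_max_right _ _, fun δ h0 h1 U hU => ?_⟩
  obtain ⟨G, hG, h2, h3⟩ := hC δ h0 h1 (U.indicator 1) (measurable_one.indicator hU)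
  refine ⟨fun w => G w, hG.comp measurable_subtype_coe, ?_, ?_⟩
  · rintro w a _ rfl
    refine le_trans ?_ (h2 _ (norm_eq_of_mem_sphere w))
    refine le_iSup_of_le a (le_of_eq ?_)
    rw [lintegral_ind hU]
  · rw [surf, lintegral_map (hG.pow_const _) measurable_subtype_coe] at h3
    rw [← lintegral_ind_pow hU]
    refine h3.trans (mul_le_mul_left (ENNReal.ofReal_le_ofReal ?_) _)
    exact mul_le_mul_of_nonneg_right (le_max_left _ _) (by positivity)

/-- from the sections of the dilates by unit segments to the section by the whole line -/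
theorem line_le {A : Set (E 3)} {x e : E 3} (h : ∀ m : ℕ, 3 * dimH {t : ℝ | |t| ≤ 1 / 2 ∧
    ((m : ℝ) + 1)⁻¹ • x + t • e ∈ (fun y => ((m : ℝ) + 1) • y) ⁻¹' A} ≤
      dimH ((fun y => ((m : ℝ) + 1) • y) ⁻¹' A)) : 3 * dimH {t : ℝ | x + t • e ∈ A} ≤ dimH A := by
  have h1 : {t : ℝ | x + t • e ∈ A} ⊆ ⋃ m : ℕ, (fun t => ((m : ℝ) + 1) • t) ''
      {t : ℝ | |t| ≤ 1 / 2 ∧ ((m : ℝ) + 1)⁻¹ • x + t • e ∈ (fun y => ((m : ℝ) + 1) • y) ⁻¹' A} := by
    intro t ht
    obtain ⟨m, hm⟩ := exists_nat_ge (2 * |t|)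
    have h0 : (0 : ℝ) < m + 1 := by positivity
    refine mem_iUnion.2 ⟨m, ((m : ℝ) + 1)⁻¹ * t, ⟨?_, ?_⟩, mul_inv_cancel_left₀ h0.ne' t⟩
    · rw [abs_mul, abs_of_pos (inv_pos.2 h0), inv_mul_le_iff₀ h0]
      linarith
    · rw [mem_preimage, mul_smul, ← smul_add, smul_inv_smul₀ h0.ne']
      exact ht
  refine (mul_le_mul_right (dimH_mono h1) 3).trans ?_
  rw [dimH_iUnion, ENNReal.mul_iSup]
  refine iSup_le fun m => ?_
  have h0 : (0 : ℝ) < m + 1 := by positivity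
  refine (mul_le_mul_right ((lipschitzWith_smul _).dimH_image_le _) 3).trans ((h m).trans ?_)
  rw [preimage_smul₀ h0.ne']
  exact (lipschitzWith_smul _).dimH_image_le _

theorem slice_kak (H : M3.KMax 2) (A : Set (E 3)) :
    ∀ᵐ (e : sphere (0 : E 3) 1) ∂(volume : Measure (E 3)).toSphere, ∀ a : E 3,
      3 * dimH {t : ℝ | a + t • (e : E 3) ∈ A} ≤ dimH A := by
  filter_upwards [ae_all_iff.2 fun m : ℕ => slice
    (fun w _ _ h => by exact h ▸ norm_eq_of_mem_sphere w) (maxInd_kak H)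
    ((fun y => ((m : ℝ) + 1) • y) ⁻¹' A)] with e he a
  exact line_le fun m => he m _ _ rfl

theorem slice_nik (H : AvgIneq) (A : Set (E 3)) :
    ∀ᵐ x : E 3, ∀ e : sphere (0 : E 3) 1, 3 * dimH {t : ℝ | x + t • (e : E 3) ∈ A} ≤ dimH A := by
  filter_upwards [ae_all_iff.2 fun m : ℕ => (Measure.quasiMeasurePreserving_smul volume
    (r := ((m : ℝ) + 1)⁻¹) (by positivity)).ae (slice (fun _ _ _ h => h.2)
    (maxInd_nik H) ((fun y => ((m : ℝ) + 1) • y) ⁻¹' A))] with x hx e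
  exact line_le fun m => hx m _ _ ⟨rfl, norm_eq_of_mem_sphere e⟩

end Vale.Agent.N127
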