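import Vale.Agent.N127.Line
import Vale.Agent.P127.U.Lam.Final
import Vale.Agent.P127.H864.Main

/-! # The inequality for families of tubes, and the Kakeya maximal inequality -/

open MeasureTheory Metric
open scoped ENNReal NNReal

namespace Vale.Agent.N127

open Vale.Agent.P127 Vale.Agent.P127W36

theorem avgIneq : AvgIneq := by
  classical
  intro ε hε
  obtain ⟨C, hC, H⟩ := H864.avg_ineq hε
  refine ⟨C, hC, fun ι I A e δ Λ h0 h1 h2 h3 h4 => H ι I A e δ Λ h0 h1 h2 h3 fun W hW => ?_⟩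
  have := h4 W hW (I.filter fun i => tube δ (A i) (e i) ⊆ W) fun i hi => (Finset.mem_filter.1 hi).2
  convert this

theorem kak_norm (ε : ℝ) (hε : 0 < ε) : ∃ C : ℝ≥0, ∀ f : E 3 → ℂ,
    MemLp f 3 volume → ∀ δ : ℝ, 0 < δ → δ < 1 → Measurable (K δ f) ∧
      eLpNorm (K δ f) 3 (volume : Measure (E 3)).toSphere ≤
        C * ENNReal.ofReal (δ ^ (-ε)) * eLpNorm f 3 volume := by
  obtain ⟨C, hC⟩ := maximal_of_kmax U.Final.kmax2 ε hε
  exact ⟨C, fun f hf δ h0 h1 => ⟨(lsc_K h0 hf.1).measurable, hC f hf δ h0 h1⟩⟩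

end Vale.Agent.N127
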