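import Vale.Agent.N127.Slice

/-! # The Nikodym maximal inequality from the inequality for families of tubes -/

open MeasureTheory Metric Set Filter Topology
open scoped ENNReal NNReal RealInnerProductSpace

namespace Vale.Agent.N127

open Vale.Agent.P127 Vale.Agent.P127W36

/-- the Nikodym maximal function of a nonnegative function -/
noncomputable def nik (δ : ℝ) (g : E 3 → ℝ≥0∞) (x : E 3) : ℝ≥0∞ :=
  ⨆ (a : E 3) (e : sphere (0 : E 3) 1) (_ : x ∈ tube δ a e),
    (volume (tube δ a e))⁻¹ * ∫⁻ y in tube δ a e, g y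

theorem lsc_nik {δ : ℝ} (hδ : 0 < δ) {g : E 3 → ℝ≥0∞} (hg : AEMeasurable g volume) :
    LowerSemicontinuous (nik δ g) := by
  have h1 : nik δ g = fun x => ⨆ (b : E 3) (e : sphere (0 : E 3) 1) (_ : (0 : E 3) ∈ tube δ b e),
      ∫⁻ y in otube δ (x + b) e, (volume (tube δ 0 (e : E 3)))⁻¹ * g y := by
    funext x
    unfold nik
    rw [← (add_left_surjective x).iSup_comp]
    refine iSup_congr fun b => iSup_congr fun e => ?_
    have he : ‖(e : E 3)‖ = 1 := norm_eq_of_mem_sphere e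
    refine iSup_congr_Prop ?_ fun _ => ?_
    · rw [mem_tube_iff he, mem_tube_iff he, show x - (x + b) = 0 - b by abel]
    · rw [lintegral_const_mul' _ _ (ENNReal.inv_ne_top.2 (volume_tube_pos hδ he).ne'),
        volume_tube_eq (a' := 0) he he, setLIntegral_congr (tube_ae_eq hδ he)]
  rw [h1]
  refine lowerSemicontinuous_iSup fun b => lowerSemicontinuous_iSup fun e =>
    lowerSemicontinuous_iSup fun _ => lowerSemicontinuous_iff_le_liminf.2 fun x => ?_
  simp only [← lintegral_indicator isOpen_otube.measurableSet]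
  refine le_trans (lintegral_mono fun y => ?_) (lintegral_liminf_le' fun _ =>
    (hg.const_mul _).indicator isOpen_otube.measurableSet)
  by_cases hy : y ∈ otube δ (x + b) e
  · rw [indicator_of_mem hy]
    refine le_liminf_of_le (by isBoundedDefault) ?_
    have h3 : Continuous fun x' : E 3 => |⟪y - (x' + b), (e : E 3)⟫| := by fun_prop
    have h4 : Continuous fun x' : E 3 => ‖y - (x' + b) - ⟪y - (x' + b), (e : E 3)⟫ • (e : E 3)‖ := by
      fun_prop
    have h2 : IsOpen {x' : E 3 | y ∈ otube δ (x' + b) e} :=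
      (isOpen_lt h3 continuous_const).inter (isOpen_lt h4 continuous_const)
    filter_upwards [h2.mem_nhds hy] with x' hx'
    rw [indicator_of_mem hx']
  · rw [indicator_of_notMem hy]
    exact zero_le

/-- the half-open cubes of side `r` -/
def cube (r : ℝ) (z : Fin 3 → ℤ) : Set (E 3) :=
  WithLp.ofLp ⁻¹' pi univ fun i => Ico (z i * r) ((z i + 1) * r)

theorem mem_cube {r : ℝ} (hr : 0 < r) {z : Fin 3 → ℤ} {x : E 3} :
    x ∈ cube r z ↔ (fun i => ⌊x i / r⌋) = z := by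
  simp only [cube, mem_preimage, Set.mem_pi, mem_univ, forall_const, mem_Ico, funext_iff,
    Int.floor_eq_iff, le_div_iff₀ hr, div_lt_iff₀ hr]

theorem measurableSet_cube (r : ℝ) (z : Fin 3 → ℤ) : MeasurableSet (cube r z) :=
  (PiLp.volume_preserving_ofLp (Fin 3)).measurable (MeasurableSet.univ_pi fun _ => measurableSet_Ico)

theorem volume_cube {r : ℝ} (hr : 0 < r) (z : Fin 3 → ℤ) :
    volume (cube r z) = ENNReal.ofReal (r ^ 3) := by
  rw [cube, (PiLp.volume_preserving_ofLp (Fin 3)).measure_preimage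
    (MeasurableSet.univ_pi fun _ => measurableSet_Ico).nullMeasurableSet, Real.volume_pi_Ico,
    ENNReal.ofReal_pow hr.le]
  simp only [add_mul, one_mul, add_sub_cancel_left, Finset.prod_const, Finset.card_univ,
    Fintype.card_fin]

theorem norm_cube {r : ℝ} (hr : 0 < r) {z : Fin 3 → ℤ} {x y : E 3} (hx : x ∈ cube r z)
    (hy : y ∈ cube r z) : ‖x - y‖ < 2 * r := by
  have h : ∀ i, (x i - y i) ^ 2 ≤ r ^ 2 := fun i => by
    obtain ⟨h1, h2⟩ := hx i trivial
    obtain ⟨h3, h4⟩ := hy i trivial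
    exact sq_le_sq' (by linarith) (by linarith)
  refine lt_of_pow_lt_pow_left₀ 2 (by positivity) ?_
  rw [EuclideanSpace.real_norm_sq_eq, Fin.sum_univ_three]
  simp only [PiLp.sub_apply]
  nlinarith [h 0, h 1, h 2]

theorem ball_subset_tube' {δ : ℝ} (h1 : δ < 1) (a : E 3) {e : E 3} (he : ‖e‖ = 1) :
    ball a (δ / 2) ⊆ tube δ a e := by
  simpa using ball_subset_tube (δ := δ) (t := 0) (a := a) he (by rw [abs_zero]; linarith)

/-- the cubes met by tubes inside a convex set fill at most eight times its volume -/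
theorem card_cubes {δ : ℝ} (h0 : 0 < δ) (h1 : δ < 1) {W : Set (E 3)} (hW : Convex ℝ W)
    {J : Finset (Fin 3 → ℤ)} {A e : (Fin 3 → ℤ) → E 3} (he : ∀ z, ‖e z‖ = 1)
    (hA : ∀ z, (tube δ (A z) (e z) ∩ cube (δ / 4) z).Nonempty)
    (hJ : ∀ z ∈ J, tube δ (A z) (e z) ⊆ W) :
    (J.card : ℝ≥0∞) * ENNReal.ofReal ((δ / 4) ^ 3) ≤ ENNReal.ofReal 8 * volume W := by
  have hr : 0 < δ / 4 := by positivity
  rcases J.eq_empty_or_nonempty with rfl | ⟨z₀, hz₀⟩
  · simp
  have h2 : volume (⋃ z ∈ J, cube (δ / 4) z) = J.card * ENNReal.ofReal ((δ / 4) ^ 3) := by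
    rw [measure_biUnion_finset (fun z _ z' _ h => disjoint_left.2 fun x hx hx' =>
      h (((mem_cube hr).1 hx).symm.trans ((mem_cube hr).1 hx'))) fun _ _ => measurableSet_cube _ _]
    simp only [volume_cube hr, Finset.sum_const, nsmul_eq_mul]
  have h3 := Measure.addHaar_image_homothety (volume : Measure (E 3)) (A z₀) 2 W
  rw [finrank_euclideanSpace_fin, show |(2 : ℝ) ^ 3| = 8 by norm_num] at h3
  rw [← h2, ← h3]
  refine measure_mono (iUnion₂_subset fun z hz q hq => ?_)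
  obtain ⟨p, hp, hp'⟩ := hA z
  have h4 : A z₀ + (q - p) ∈ W := hJ z₀ hz₀ (ball_subset_tube' h1 _ (he z₀) (by
    rw [mem_ball, dist_self_add_left]
    linarith [norm_cube hr hq hp']))
  refine ⟨_, hW (hJ z hz hp) h4 (a := 1 / 2) (b := 1 / 2) (by norm_num) (by norm_num)
    (by norm_num), ?_⟩
  rw [AffineMap.homothety_apply, vsub_eq_sub, vadd_eq_add]
  module

theorem sum_iSup_eq {ι : Type} {κ : ι → Type} [∀ i, Nonempty (κ i)] (F : Finset ι)
    (φ : ∀ i, κ i → ℝ≥0∞) : ∑ i ∈ F, ⨆ k, φ i k = ⨆ c : ∀ i, κ i, ∑ i ∈ F, φ i (c i) := by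
  classical
  rw [← ENNReal.finsetSum_iSup]
  · exact Finset.sum_congr rfl fun i _ => ((Function.surjective_eval i).iSup_comp (φ i)).symm
  · intro c c'
    refine ⟨fun i => if φ i (c i) ≤ φ i (c' i) then c' i else c i, fun i => ?_⟩
    by_cases h : φ i (c i) ≤ φ i (c' i)
    · simp [h]
    · simp [h, (not_le.1 h).le]

/-- the maximal inequality for the families of tubes with the convex Wolff condition -/
def AvgIneq : Prop :=
  ∀ ε : ℝ, 0 < ε → ∃ C : ℝ, 0 < C ∧ ∀ (ι : Type) (I : Finset ι) (A e : ι → E 3) (δ Λ : ℝ),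
    0 < δ → δ < 1 → 1 ≤ Λ → (∀ i ∈ I, ‖e i‖ = 1) →
    (∀ W : Set (E 3), Convex ℝ W → ∀ J : Finset ι, (∀ i ∈ J, tube δ (A i) (e i) ⊆ W) →
      ∑ i ∈ J, volume (tube δ (A i) (e i)) ≤ ENNReal.ofReal Λ * volume W) →
    ∀ f : E 3 → ℝ≥0∞, Measurable f → ∑ i ∈ I, volume (tube δ (A i) (e i)) *
      ((∫⁻ x in tube δ (A i) (e i), f x) / volume (tube δ (A i) (e i))) ^ 3 ≤
      ENNReal.ofReal (C * δ ^ (-ε) * Λ ^ (1 + ε)) * ∫⁻ x, f x ^ 3

theorem nik_ineq (H : AvgIneq) {ε : ℝ} (hε : 0 < ε) : ∃ C : ℝ, 0 ≤ C ∧ ∀ δ : ℝ, 0 < δ → δ < 1 →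
    ∀ g : E 3 → ℝ≥0∞, Measurable g →
      ∫⁻ x, nik δ g x ^ 3 ≤ ENNReal.ofReal (C * δ ^ (-ε)) * ∫⁻ x, g x ^ 3 := by
  obtain ⟨C, hC, H⟩ := H (ε / 4) (by positivity)
  set M := (volume (closedBall (0 : E 3) (3 / 2))).toReal with hM
  have hM0 : 0 ≤ M := ENNReal.toReal_nonneg
  refine ⟨8 * C * (512 * M) ^ (ε / 4), by positivity, fun δ h0 h1 g hg => ?_⟩
  have hr : 0 < δ / 4 := by positivity
  set e₀ : E 3 := EuclideanSpace.single 0 1 with he₀
  have h₀ : ‖e₀‖ = 1 := by simp [he₀]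
  set τ := (volume (tube δ 0 e₀)).toReal with hτ
  have hτe : ∀ a e : E 3, ‖e‖ = 1 → volume (tube δ a e) = ENNReal.ofReal τ := fun a e he => by
    rw [hτ, ENNReal.ofReal_toReal (volume_tube_lt_top h₀).ne, volume_tube_eq he h₀]
  have hτM : τ ≤ M := by
    refine ENNReal.toReal_mono measure_closedBall_lt_top.ne (measure_mono ?_)
    rintro _ ⟨t, u, k1, -, k3, rfl⟩
    rw [mem_closedBall_zero_iff, zero_add]
    refine (norm_add_le _ _).trans ?_
    rw [norm_smul, h₀, mul_one, Real.norm_eq_abs]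
    linarith
  set v := (δ / 4) ^ 3 with hv
  have hv0 : 0 < v := by positivity
  have hvτ : v ≤ τ := by
    rw [← ENNReal.ofReal_le_ofReal_iff ENNReal.toReal_nonneg, ← hτe 0 e₀ h₀, ← volume_cube hr 0]
    refine measure_mono fun x hx => ball_subset_tube' h1 _ h₀ ?_
    have := norm_cube hr hx (y := 0) ((mem_cube hr).2 (by ext; simp))
    rw [mem_ball, dist_eq_norm]
    linarith
  have hτ0 : 0 < τ := hv0.trans_le hvτ
  set κ : (Fin 3 → ℤ) → Type := fun z =>
    {p : E 3 × E 3 // ‖p.2‖ = 1 ∧ (tube δ p.1 p.2 ∩ cube (δ / 4) z).Nonempty} with hκ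
  have : ∀ z, Nonempty (κ z) := fun z => by
    obtain ⟨x, hx⟩ := nonempty_of_measure_ne_zero (μ := volume) (s := cube (δ / 4) z)
      (by rw [volume_cube hr]; exact (ENNReal.ofReal_pos.2 hv0).ne')
    exact ⟨⟨(x, e₀), h₀, x, ball_subset_tube' h1 _ h₀ (mem_ball_self (by positivity)), hx⟩⟩
  set φ : ∀ z, κ z → ℝ≥0∞ := fun z k =>
    ((∫⁻ x in tube δ k.1.1 k.1.2, g x) / volume (tube δ k.1.1 k.1.2)) ^ 3 * ENNReal.ofReal v
    with hφ
  have h2 : ∀ z, ∫⁻ x in cube (δ / 4) z, nik δ g x ^ 3 ≤ ⨆ k, φ z k := fun z => by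
    rw [← ENNReal.iSup_mul, ← volume_cube hr z, ← setLIntegral_const]
    refine setLIntegral_mono' (measurableSet_cube _ _) fun x hx => ?_
    rw [← ENNReal.iSup_pow]
    refine pow_le_pow_left' (iSup_le fun a => iSup_le fun e => iSup_le fun h => ?_) 3
    rw [← ENNReal.div_eq_inv_mul]
    exact le_iSup_of_le (⟨(a, e), norm_eq_of_mem_sphere e, x, h, hx⟩ : κ z) le_rfl
  have h3 : (⋃ z, cube (δ / 4) z) = univ :=
    eq_univ_of_forall fun x => mem_iUnion.2 ⟨_, (mem_cube hr).2 rfl⟩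
  rw [← setLIntegral_univ, ← h3]
  refine (lintegral_iUnion_le _ _).trans ((ENNReal.tsum_le_tsum h2).trans ?_)
  rw [ENNReal.tsum_eq_iSup_sum]
  refine iSup_le fun F => ?_
  rw [sum_iSup_eq]
  refine iSup_le fun c => ?_
  have hΛ : 1 ≤ 8 * τ / v := by
    rw [le_div_iff₀ hv0]
    linarith
  have h4 := H _ F (fun z => (c z).1.1) (fun z => (c z).1.2) δ (8 * τ / v) h0 h1 hΛ
    (fun z _ => (c z).2.1) (fun W hW J hJ => by
      have h5 := card_cubes h0 h1 hW (fun z => (c z).2.1) (fun z => (c z).2.2) hJ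
      simp only [hτe _ _ (c _).2.1, Finset.sum_const, nsmul_eq_mul]
      rw [show τ = v * (τ / v) by field_simp, ENNReal.ofReal_mul hv0.le, ← mul_assoc]
      refine (mul_le_mul_left h5 _).trans (le_of_eq ?_)
      rw [mul_right_comm, ← ENNReal.ofReal_mul (by norm_num)]
      congr 2
      field_simp) g hg
  have h5 : ∑ z ∈ F, φ z (c z) = ENNReal.ofReal (v / τ) *
      ∑ z ∈ F, volume (tube δ (c z).1.1 (c z).1.2) * ((∫⁻ x in tube δ (c z).1.1 (c z).1.2, g x) /
        volume (tube δ (c z).1.1 (c z).1.2)) ^ 3 := by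
    rw [Finset.mul_sum]
    refine Finset.sum_congr rfl fun z _ => ?_
    have h6 : ENNReal.ofReal (v / τ) * volume (tube δ (c z).1.1 (c z).1.2) = ENNReal.ofReal v := by
      rw [hτe _ _ (c z).2.1, ← ENNReal.ofReal_mul (by positivity), div_mul_cancel₀ _ hτ0.ne']
    rw [← mul_assoc, h6, mul_comm]
  rw [h5]
  refine (mul_le_mul_right h4 _).trans ?_
  rw [← mul_assoc, ← ENNReal.ofReal_mul (by positivity)]
  refine mul_le_mul_left (ENNReal.ofReal_le_ofReal ?_) _
  have h6 : (8 * τ / v) ^ (ε / 4) ≤ (512 * M) ^ (ε / 4) * δ ^ (-(3 * (ε / 4))) := by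
    rw [show -(3 * (ε / 4)) = -((3 : ℕ) : ℝ) * (ε / 4) by push_cast; ring, Real.rpow_mul h0.le,
      ← Real.mul_rpow (by positivity) (by positivity), Real.rpow_neg h0.le, Real.rpow_natCast]
    refine Real.rpow_le_rpow (by positivity) ?_ (by positivity)
    rw [hv, show 8 * τ / (δ / 4) ^ 3 = 512 * τ * (δ ^ 3)⁻¹ by field_simp; norm_num]
    gcongr
  have h7 : δ ^ (-ε) = δ ^ (-(ε / 4)) * δ ^ (-(3 * (ε / 4))) := by
    rw [← Real.rpow_add h0]
    congr 1
    ring
  rw [Real.rpow_add (by positivity), Real.rpow_one, h7]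
  calc _ = 8 * C * δ ^ (-(ε / 4)) * (8 * τ / v) ^ (ε / 4) := by field_simp
    _ ≤ 8 * C * δ ^ (-(ε / 4)) * ((512 * M) ^ (ε / 4) * δ ^ (-(3 * (ε / 4)))) := by gcongr
    _ = _ := by ring

end Vale.Agent.N127
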