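import Vale.Agent.P127W36.Lsc
import Vale.Agent.P127.Cover

/-! # From a maximal inequality to the dimension of the line sections of a set -/

open MeasureTheory Metric Set Filter Topology
open scoped ENNReal NNReal RealInnerProductSpace

namespace Vale.Agent.N127

open Vale.Agent.P127 Vale.Agent.P127W36

/-- the midpoints of the `N` equal parts of the unit segment -/
noncomputable def tj (N j : ℕ) : ℝ := -1 / 2 + (j + 1 / 2) * (N : ℝ)⁻¹

theorem exists_tj {N : ℕ} (hN : 0 < N) {t : ℝ} (ht : |t| ≤ 1 / 2) :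
    ∃ j < N, |t - tj N j| ≤ (N : ℝ)⁻¹ / 2 := by
  have h0 : (0 : ℝ) < N := by exact_mod_cast hN
  obtain ⟨h1, h2⟩ := abs_le.1 ht
  have key : ∀ j : ℕ, (j : ℝ) ≤ (t + 1 / 2) * N → (t + 1 / 2) * N ≤ j + 1 →
      |t - tj N j| ≤ (N : ℝ)⁻¹ / 2 := fun j a b => by
    have e : t - tj N j = ((t + 1 / 2) * N - j - 1 / 2) * (N : ℝ)⁻¹ := by
      unfold tj
      field_simp
      ring
    rw [e, abs_mul, abs_of_pos (inv_pos.2 h0)]
    have : |(t + 1 / 2) * N - j - 1 / 2| ≤ 1 / 2 := abs_le.2 ⟨by linarith, by linarith⟩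
    nlinarith [inv_pos.2 h0]
  have h3 : 0 ≤ (t + 1 / 2) * N := by nlinarith
  by_cases c : ⌊(t + 1 / 2) * N⌋₊ < N
  · exact ⟨_, c, key _ (Nat.floor_le h3) (Nat.lt_floor_add_one _).le⟩
  · have h4 : (N : ℝ) ≤ (t + 1 / 2) * N := (Nat.le_floor_iff h3).1 (not_lt.1 c)
    have h5 : ((N - 1 : ℕ) : ℝ) = N - 1 := by rw [Nat.cast_sub hN, Nat.cast_one]
    exact ⟨N - 1, by omega, key _ (by rw [h5]; linarith) (by rw [h5]; nlinarith)⟩

theorem vol_ball (x : E 3) {r : ℝ} (hr : 0 < r) :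
    volume (ball x r) = ENNReal.ofReal (r ^ 3) * volume (ball (0 : E 3) 1) := by
  rw [Measure.addHaar_ball_of_pos _ _ hr, finrank_euclideanSpace_fin]

theorem ball_subset_tube {δ t : ℝ} {a e : E 3} (he : ‖e‖ = 1) (ht : |t| ≤ 1 / 2 - δ / 2) :
    ball (a + t • e) (δ / 2) ⊆ tube δ a e := by
  intro y hy
  rw [mem_ball_iff_norm] at hy
  set w := y - (a + t • e) with hw
  have hee : ⟪e, e⟫ = (1 : ℝ) := by rw [real_inner_self_eq_norm_sq, he]; norm_num
  have h1 : |⟪w, e⟫| ≤ ‖w‖ := by simpa [he] using abs_real_inner_le_norm w e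
  have e1 : y - a = t • e + w := by rw [hw]; abel
  have e2 : ⟪t • e + w, e⟫ = t + ⟪w, e⟫ := by rw [inner_add_left, real_inner_smul_left, hee, mul_one]
  rw [mem_tube_iff he, e1, e2]
  refine ⟨(abs_add_le _ _).trans (by linarith), ?_⟩
  rw [show t • e + w - (t + ⟪w, e⟫) • e = w - ⟪w, e⟫ • e by rw [add_smul]; abel]
  refine (norm_sub_le _ _).trans ?_
  rw [norm_smul, he, mul_one, Real.norm_eq_abs]
  linarith

theorem dist_line (a : E 3) {e : E 3} (he : ‖e‖ = 1) (t t' : ℝ) :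
    dist (a + t • e) (a + t' • e) = |t - t'| := by
  rw [dist_add_left, dist_eq_norm, ← sub_smul, norm_smul, he, mul_one, Real.norm_eq_abs]

theorem count_le {N : ℕ} (hN : 0 < N) {a e : E 3} (he : ‖e‖ = 1) {U : Set (E 3)} {J : Finset ℕ}
    (hJ : ∀ j ∈ J, j < N ∧ ball (a + tj N j • e) ((N : ℝ)⁻¹ / 2) ⊆ U) :
    ENNReal.ofReal (J.card * (N : ℝ)⁻¹ / 64) ≤
      volume (U ∩ tube (N : ℝ)⁻¹ a e) / volume (tube (N : ℝ)⁻¹ a e) := by
  have h0 : (0 : ℝ) < N := by exact_mod_cast hN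
  set δ := (N : ℝ)⁻¹ with hδ
  have hδ0 : 0 < δ := inv_pos.2 h0
  have hδN : δ * N = 1 := inv_mul_cancel₀ h0.ne'
  have h1 : (J.card : ℝ≥0∞) * (ENNReal.ofReal ((δ / 2) ^ 3) * volume (ball (0 : E 3) 1)) ≤
      volume (U ∩ tube δ a e) := by
    have h2 : (J : Set ℕ).PairwiseDisjoint fun j => ball (a + tj N j • e) (δ / 2) := by
      intro i _ j _ hij
      refine ball_disjoint_ball ?_
      rw [dist_line a he, show tj N i - tj N j = ((i : ℝ) - j) * δ by unfold tj; ring, abs_mul,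
        abs_of_pos hδ0]
      have h3 : (1 : ℝ) ≤ |(i : ℝ) - j| := by
        have : (1 : ℤ) ≤ |(i : ℤ) - j| := Int.one_le_abs (by omega)
        exact_mod_cast this
      nlinarith
    refine le_trans (le_of_eq ?_) (measure_mono (s := ⋃ j ∈ J, ball (a + tj N j • e) (δ / 2))
      (iUnion₂_subset fun j hj => subset_inter (hJ j hj).2 (ball_subset_tube he ?_)))
    · rw [measure_biUnion_finset h2 fun _ _ => measurableSet_ball]
      simp only [vol_ball _ (half_pos hδ0), Finset.sum_const, nsmul_eq_mul]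
    · have h3 : (j : ℝ) + 1 ≤ N := by exact_mod_cast (hJ j hj).1
      have h4 : (0 : ℝ) ≤ j := j.cast_nonneg
      unfold tj
      rw [← hδ]
      exact abs_le.2 ⟨by nlinarith, by nlinarith⟩
  have h2 : volume (tube δ a e) ≤
      (N : ℝ≥0∞) * (ENNReal.ofReal ((2 * δ) ^ 3) * volume (ball (0 : E 3) 1)) := by
    refine (measure_mono (t := ⋃ j ∈ Finset.range N, ball (a + tj N j • e) (2 * δ)) ?_).trans
      ((measure_biUnion_finset_le _ _).trans (le_of_eq ?_))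
    · rintro _ ⟨t, u, k1, -, k3, rfl⟩
      obtain ⟨j, hj, k4⟩ := exists_tj hN k1
      refine mem_iUnion₂.2 ⟨j, Finset.mem_range.2 hj, ?_⟩
      have k5 := dist_triangle (a + t • e + u) (a + t • e) (a + tj N j • e)
      rw [dist_line a he, dist_self_add_left] at k5
      rw [mem_ball]
      linarith
    · simp only [vol_ball _ (mul_pos two_pos hδ0), Finset.sum_const, nsmul_eq_mul,
        Finset.card_range]
  rw [ENNReal.le_div_iff_mul_le (Or.inl (volume_tube_pos hδ0 he).ne')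
    (Or.inl (volume_tube_lt_top he).ne)]
  refine (mul_le_mul_right h2 _).trans (le_trans (le_of_eq ?_) h1)
  rw [← mul_assoc, ← mul_assoc, ← mul_assoc, ← ENNReal.ofReal_natCast N,
    ← ENNReal.ofReal_natCast J.card, ← ENNReal.ofReal_mul (by positivity),
    ← ENNReal.ofReal_mul (by positivity), ← ENNReal.ofReal_mul (by positivity)]
  congr 2
  linear_combination (J.card * δ ^ 3 / 8) * hδN

variable {Ω : Type} [MeasurableSpace Ω] {μ : Measure Ω} {P : Ω → E 3 → E 3 → Prop}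

/-- the maximal inequality for indicator functions, for the tubes attached to the points of `Ω` -/
def MaxInd (μ : Measure Ω) (P : Ω → E 3 → E 3 → Prop) : Prop :=
  ∀ ε : ℝ, 0 < ε → ∃ C : ℝ, 0 ≤ C ∧ ∀ δ : ℝ, 0 < δ → δ < 1 → ∀ U : Set (E 3), MeasurableSet U →
    ∃ G : Ω → ℝ≥0∞, Measurable G ∧
      (∀ ω a e, P ω a e → volume (U ∩ tube δ a e) / volume (tube δ a e) ≤ G ω) ∧
      ∫⁻ ω, G ω ^ 3 ∂μ ≤ ENNReal.ofReal (C * δ ^ (-ε)) * volume U

theorem slice_zero (hP : ∀ ω a e, P ω a e → ‖e‖ = 1) (H : MaxInd μ P) {A : Set (E 3)}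
    {s α : ℝ≥0} (hs : dimH A < s) (hα : s < 3 * α) :
    ∀ᵐ ω ∂μ, ∀ a e, P ω a e → μH[α] {t : ℝ | |t| ≤ 1 / 2 ∧ a + t • e ∈ A} = 0 := by
  classical
  have hα' : (s : ℝ) < 3 * α := by exact_mod_cast hα
  set γ : ℝ := (3 * α - s) / 5 with hγ
  have hγ0 : 0 < γ := by linarith
  obtain ⟨C, hC0, hC⟩ := H γ hγ0
  set δ : ℕ → ℝ := fun m => ((2 ^ m : ℕ) : ℝ)⁻¹ with hδ
  have hδe : ∀ m, δ m = (1 / 2) ^ m := fun m => by simp [hδ]
  have hδ0 : ∀ m, 0 < δ m := fun m => by rw [hδe]; positivity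
  have hδ1 : ∀ m, δ (m + 1) < 1 := fun m => by
    rw [hδe]
    exact pow_lt_one₀ (by norm_num) (by norm_num) m.succ_ne_zero
  have hδs : ∀ m, δ (m + 1) = δ m / 2 := fun m => by rw [hδe, hδe, pow_succ]; ring
  choose x ρ hρ0 hρ1 hcov hsum using fun n : ℕ => exists_cover hs (hδ0 (n + 1))
  set U : ℕ → ℕ → Set (E 3) := fun n m =>
    ⋃ i, ⋃ _ : δ (m + 1) < ρ n i ∧ ρ n i ≤ δ m, ball (x n i) (2 * δ m) with hU
  choose G hG hPG hI using fun n m => hC (δ (m + 1)) (hδ0 _) (hδ1 _) (U n (m + 1))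
    (isOpen_iUnion fun _ => isOpen_iUnion fun _ => isOpen_ball).measurableSet
  set b := volume (ball (0 : E 3) 1) with hb
  have hvol : ∀ n m, volume (U n m) ≤
      ENNReal.ofReal ((2 * δ m) ^ 3 * (δ m / 2) ^ (-(s : ℝ))) * b := fun n m => by
    have h1 : ∑' i, ENNReal.ofReal (ρ n i ^ (s : ℝ)) ≤ 1 := by
      rw [ENNReal.tsum_eq_iSup_sum]
      refine iSup_le fun F => ?_
      rw [← ENNReal.ofReal_sum_of_nonneg fun i _ => Real.rpow_nonneg (hρ0 n i).le _]
      exact ENNReal.ofReal_le_one.2 (hsum n F)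
    refine (measure_iUnion_le _).trans (le_trans (ENNReal.tsum_le_tsum fun i => ?_)
      (ENNReal.tsum_mul_left.le.trans ((mul_le_mul_right h1 _).trans (mul_one _).le)))
    by_cases c : δ (m + 1) < ρ n i ∧ ρ n i ≤ δ m
    · have h2 := hδ0 m
      rw [iUnion_eq_if, if_pos c, vol_ball _ (by positivity), mul_right_comm,
        ← ENNReal.ofReal_mul (by positivity), mul_assoc]
      refine mul_le_mul_left (ENNReal.ofReal_le_ofReal (le_mul_of_one_le_right (by positivity) ?_)) _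
      rw [Real.rpow_neg (by positivity), ← div_eq_inv_mul, one_le_div (by positivity)]
      exact Real.rpow_le_rpow (by positivity) (hδs m ▸ c.1.le) s.2
    · rw [iUnion_eq_if, if_neg c, measure_empty]
      exact zero_le
  set R : ℝ≥0∞ := ENNReal.ofReal ((1 / 2) ^ γ) with hR
  have hR1 : R < 1 := ENNReal.ofReal_lt_one.2 (Real.rpow_lt_one (by norm_num) (by norm_num) hγ0)
  have hRδ : ∀ m, ENNReal.ofReal (δ m ^ γ) = R ^ m := fun m => by
    rw [hR, ← ENNReal.ofReal_pow (by positivity), hδe, ← Real.rpow_natCast,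
      ← Real.rpow_mul (by norm_num), mul_comm, Real.rpow_mul (by norm_num), Real.rpow_natCast]
  have hRi : (1 - R)⁻¹ ≠ ∞ := ENNReal.inv_ne_top.2 (tsub_pos_of_lt hR1).ne'
  have hgeo : ∀ (D : ℝ≥0∞) (n : ℕ), ∑' k, D * R ^ (k + n + 1) ≤ D * (1 - R)⁻¹ * R ^ n := by
    intro D n
    rw [← ENNReal.tsum_geometric, mul_assoc, ← ENNReal.tsum_mul_right, ← ENNReal.tsum_mul_left]
    refine ENNReal.tsum_le_tsum fun k => mul_le_mul_right ?_ _
    rw [pow_succ, pow_add]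
    exact mul_le_of_le_one_right' hR1.le
  set B : ℕ → ℕ → Set Ω := fun n m =>
    {ω | ENNReal.ofReal (δ (m + 1) ^ (1 - α + γ)) ^ 3 ≤ G n m ω ^ 3} with hB
  have hBm : ∀ n m, μ (B n m) ≤ ENNReal.ofReal (C * 8 * 2 ^ (s : ℝ)) * b * R ^ (m + 1) := by
    intro n m
    have h2 := hδ0 (m + 1)
    have h1 := (mul_meas_ge_le_lintegral ((hG n m).pow_const 3)
      (ENNReal.ofReal (δ (m + 1) ^ (1 - α + γ)) ^ 3)).trans
      ((hI n m).trans (mul_le_mul_right (hvol n (m + 1)) _))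
    rw [← ENNReal.mul_le_mul_iff_right (a := ENNReal.ofReal (δ (m + 1) ^ (1 - α + γ)) ^ 3)
      (pow_ne_zero _ (ENNReal.ofReal_pos.2 (by positivity)).ne')
      (ENNReal.pow_ne_top ENNReal.ofReal_ne_top)]
    refine h1.trans (le_of_eq ?_)
    rw [← hRδ, mul_right_comm, ← mul_assoc, ← mul_assoc, ← ENNReal.ofReal_pow (by positivity),
      ← ENNReal.ofReal_mul (by positivity), ← mul_assoc, ← ENNReal.ofReal_mul (by positivity),
      ← ENNReal.ofReal_mul (by positivity)]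
    congr 2
    have e1 : (δ (m + 1) / 2) ^ (-(s : ℝ)) = δ (m + 1) ^ (-(s : ℝ)) * 2 ^ (s : ℝ) := by
      rw [Real.div_rpow h2.le (by norm_num), Real.rpow_neg (by norm_num : (0 : ℝ) ≤ 2),
        div_inv_eq_mul]
    have e2 : δ (m + 1) ^ (-γ) * (δ (m + 1) ^ 3 * δ (m + 1) ^ (-(s : ℝ))) =
        (δ (m + 1) ^ (1 - α + γ)) ^ 3 * δ (m + 1) ^ γ := by
      rw [← Real.rpow_natCast, ← Real.rpow_natCast, ← Real.rpow_mul h2.le, ← Real.rpow_add h2,
        ← Real.rpow_add h2, ← Real.rpow_add h2]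
      congr 1
      push_cast
      linarith
    rw [e1]
    linear_combination (C * 8 * 2 ^ (s : ℝ)) * e2
  have hfin : ∑' n, μ (⋃ k, B n (k + n)) ≠ ∞ := by
    refine ne_top_of_le_ne_top ?_ (ENNReal.tsum_le_tsum fun n => (measure_iUnion_le _).trans
      ((ENNReal.tsum_le_tsum fun k => hBm n (k + n)).trans (hgeo _ n)))
    rw [ENNReal.tsum_mul_left, ENNReal.tsum_geometric]
    exact ENNReal.mul_ne_top (ENNReal.mul_ne_top (ENNReal.mul_ne_top ENNReal.ofReal_ne_top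
      measure_ball_lt_top.ne) hRi) hRi
  filter_upwards [ae_eventually_notMem hfin] with ω hω a e hae
  have he := hP ω a e hae
  set J : ℕ → ℕ → Finset ℕ := fun n m => (Finset.range (2 ^ m)).filter fun j =>
    ball (a + tj (2 ^ m) j • e) (δ m / 2) ⊆ U n m with hJ
  have hdiam : ∀ m j, ediam (Icc (tj (2 ^ m) j - δ m / 2) (tj (2 ^ m) j + δ m / 2)) =
      ENNReal.ofReal (δ m) := fun m j => by
    rw [Real.ediam_Icc]
    congr 1
    ring
  have hlim : ∀ D : ℝ≥0∞, D ≠ ∞ → ∀ r : ℝ≥0∞, r < 1 →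
      Tendsto (fun n : ℕ => D * r ^ n) atTop (𝓝 0) := fun D hD r hr => by
    simpa using ENNReal.Tendsto.const_mul (ENNReal.tendsto_pow_atTop_nhds_zero_of_lt_one hr)
      (Or.inr hD)
  refine le_antisymm ((Measure.hausdorffMeasure_le_liminf_tsum (ι := fun n =>
    Σ k : ℕ, J n (k + n + 1)) (α : ℝ) _ (fun n => 1 * ENNReal.ofReal (1 / 2) ^ n)
    (hlim 1 ENNReal.one_ne_top _ (ENNReal.ofReal_lt_one.2 (by norm_num)))
    (fun n p => Icc (tj (2 ^ (p.1 + n + 1)) p.2 - δ (p.1 + n + 1) / 2)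
      (tj (2 ^ (p.1 + n + 1)) p.2 + δ (p.1 + n + 1) / 2)) (Eventually.of_forall fun n p => ?_)
    (Eventually.of_forall fun n t ht => ?_)).trans (le_of_eq (Tendsto.liminf_eq ?_))) zero_le
  · rw [hdiam, one_mul, ← ENNReal.ofReal_pow (by norm_num), hδe]
    exact ENNReal.ofReal_le_ofReal (pow_le_pow_of_le_one (by norm_num) (by norm_num) (by omega))
  · obtain ⟨i, hi⟩ := mem_iUnion.1 (hcov n ht.2)
    obtain ⟨m, h1, h2⟩ := exists_nat_pow_near_of_lt_one (hρ0 n i) ((hρ1 n i).trans (hδ1 n).le)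
      (y := 1 / 2) (by norm_num) (by norm_num)
    have h3 : n + 1 < m + 1 := by
      have := h1.trans_le ((hρ1 n i).trans_eq (hδe _))
      exact (pow_lt_pow_iff_right_of_lt_one₀ (by norm_num) (by norm_num)).1 this
    obtain ⟨k, rfl⟩ : ∃ k, m = k + n + 1 := ⟨m - n - 1, by omega⟩
    rw [← hδe] at h1 h2
    obtain ⟨j, hj, h4⟩ := exists_tj (N := 2 ^ (k + n + 1)) (by positivity) ht.1
    refine mem_iUnion.2 ⟨⟨k, j, Finset.mem_filter.2 ⟨Finset.mem_range.2 hj, fun y hy =>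
      mem_iUnion₂.2 ⟨i, ⟨h1, h2⟩, ?_⟩⟩⟩, ?_⟩
    · have h5 := dist_triangle4 y (a + tj (2 ^ (k + n + 1)) j • e) (a + t • e) (x n i)
      rw [dist_line a he, abs_sub_comm] at h5
      rw [mem_ball] at hy ⊢
      rw [mem_closedBall] at hi
      change _ ≤ δ (k + n + 1) / 2 at h4
      linarith
    · change _ ≤ δ (k + n + 1) / 2 at h4
      obtain ⟨h5, h6⟩ := abs_le.1 h4
      exact ⟨by dsimp only; linarith, by dsimp only; linarith⟩
  · refine tendsto_of_tendsto_of_tendsto_of_le_of_le' tendsto_const_nhds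
      (hlim _ (ENNReal.mul_ne_top (ENNReal.ofNat_ne_top (n := 64)) hRi) R hR1)
      (Eventually.of_forall fun _ => zero_le) ?_
    filter_upwards [hω] with n hn
    rw [ENNReal.tsum_sigma']
    refine (ENNReal.tsum_le_tsum fun k => ?_).trans (hgeo 64 n)
    have h2 := hδ0 (k + n + 1)
    have h1 : G n (k + n) ω ≤ ENNReal.ofReal (δ (k + n + 1) ^ (1 - α + γ)) :=
      le_of_not_ge fun h => hn (mem_iUnion.2 ⟨k, pow_le_pow_left' h 3⟩)
    have h3 := ((count_le (N := 2 ^ (k + n + 1)) (J := J n (k + n + 1)) (by positivity) he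
      fun j hj => ⟨Finset.mem_range.1 (Finset.mem_filter.1 hj).1,
        (Finset.mem_filter.1 hj).2⟩).trans (hPG n (k + n) ω a e hae)).trans h1
    rw [ENNReal.ofReal_le_ofReal_iff (by positivity)] at h3
    change _ * δ (k + n + 1) / 64 ≤ _ at h3
    simp only [hdiam, tsum_fintype, Finset.sum_const, Finset.card_univ, Fintype.card_coe,
      nsmul_eq_mul]
    rw [← hRδ, ENNReal.ofReal_rpow_of_pos h2, ← ENNReal.ofReal_natCast, ← ENNReal.ofReal_ofNat 64,
      ← ENNReal.ofReal_mul (by positivity), ← ENNReal.ofReal_mul (by positivity)]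
    refine ENNReal.ofReal_le_ofReal ?_
    have e1 : δ (k + n + 1) ^ (1 - α + γ) * δ (k + n + 1) ^ (α : ℝ) =
        δ (k + n + 1) ^ γ * δ (k + n + 1) := by
      rw [← Real.rpow_add h2, ← Real.rpow_add_one h2.ne']
      congr 1
      ring
    have h4 := mul_le_mul_of_nonneg_right h3 (Real.rpow_nonneg h2.le (α : ℝ))
    rw [e1] at h4
    exact le_of_mul_le_mul_right (by linarith) h2

theorem slice (hP : ∀ ω a e, P ω a e → ‖e‖ = 1) (H : MaxInd μ P) (A : Set (E 3)) :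
    ∀ᵐ ω ∂μ, ∀ a e, P ω a e → 3 * dimH {t : ℝ | |t| ≤ 1 / 2 ∧ a + t • e ∈ A} ≤ dimH A := by
  have h : ∀ q : ℚ, ∀ᵐ ω ∂μ, dimH A < Real.toNNReal q → ∀ a e, P ω a e →
      dimH {t : ℝ | |t| ≤ 1 / 2 ∧ a + t • e ∈ A} ≤ (Real.toNNReal q / 3 : ℝ≥0) := fun q => by
    by_cases c : dimH A < Real.toNNReal q
    · obtain ⟨s, h1, h2⟩ := ENNReal.lt_iff_exists_nnreal_btwn.1 c
      filter_upwards [slice_zero hP H (α := Real.toNNReal q / 3) h1 (by
        rw [mul_div_cancel₀ _ (by norm_num)]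
        exact_mod_cast h2)] with ω hω _ a e hae
      exact dimH_le_of_hausdorffMeasure_ne_top (by rw [hω a e hae]; exact ENNReal.zero_ne_top)
    · exact Eventually.of_forall fun _ h => absurd h c
  filter_upwards [ae_all_iff.2 h] with ω hω a e hae
  refine le_of_not_gt fun c => ?_
  obtain ⟨q, -, h1, h2⟩ := ENNReal.lt_iff_exists_rat_btwn.1 c
  refine h2.not_ge ((mul_le_mul_right (hω q h1 a e hae) 3).trans (le_of_eq ?_))
  rw [← ENNReal.coe_ofNat, ← ENNReal.coe_mul, mul_div_cancel₀ _ (by norm_num)]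

end Vale.Agent.N127
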